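import Vale.Agent.P313.H644.TourCP
import Vale.Agent.P313.CT.MixN
import Vale.Agent.P313.NW.H899.T0LF
import Vale.Agent.P313.NW.BP.PhVal

/-!
The walk of a stage datum.
-/

namespace Vale.Agent.P313.NW.H644

open Vale.Agent.P313.H644

open Vale.Agent.P313.NW.CT Vale.Agent.P313.CT Vale.Agent.P313.NW.H899 Vale.Agent.P313.H899

/-- The walk of a stage datum: hops by the numbers of tokens `FD`, mixing by `mixN`. -/
noncomputable def wk (p : BP.Par2) (d : BP.SD) : Wk where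
  n := p.n
  F := FD p.toPar d
  H := fun x => p.q ^ d.c x
  mix a y := ⟨y.x, (MX.mixN p.q p.cmax p.nd (d.c y.x) a y.x y.z y.tp).1,
    (MX.mixN p.q p.cmax p.nd (d.c y.x) a y.x y.z y.tp).2⟩
  unmix a y := ⟨y.x, (MX.unmixN p.q p.cmax p.nd (d.c y.x) a y.x y.z y.tp).1,
    (MX.unmixN p.q p.cmax p.nd (d.c y.x) a y.x y.z y.tp).2⟩

/-- Valid contents for a datum. -/
def VdS (p : BP.Par2) (d : BP.SD) (y : Cn) : Prop :=
  y.x < p.n ∧ y.z < p.q ^ d.c y.x ∧ BP.TpOk p y.tp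

/-- One if the state is `v` or if any state is allowed. -/
def gst (n v : ℕ) (y : Cn) : ℕ := if n ≤ v ∨ y.x = v then 1 else 0

open Classical in
/-- The bridge: the trees of the numeric walk have the numbers of the token system. -/
structure Bridge (p : BP.Par2) (T : BP.TSem) (d : BP.SD) : Prop where
  W : ∀ a ≤ p.r, ∀ y, VdS p d y → (wk p d).mv.W (2 ^ a) y = T.W d a y.x y.z y.tp
  C : ∀ Z : ℕ → Prop, ∀ a ≤ p.r, ∀ v y, VdS p d y →
    (wk p d).mv.sm (Zx Z) (gst p.n v) (2 ^ a) y = T.C d Z a v y.x y.z y.tp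
  Lo : ∀ Z : ℕ → Prop, ∀ a < p.r, ∀ y, VdS p d y →
    (if ((wk p d).mv.shift (2 ^ a)).W (2 ^ a) y < p.Lam then
      if p.Lam ≤ ((wk p d).mv.shift (2 ^ a)).W (2 ^ a) y + ((wk p d).mv.shift (2 ^ a)).sl
        (fun u => if T.W d a u.x u.z u.tp < p.Lam then T.W d a u.x u.z u.tp else p.Lam) (2 ^ a) y
      then ((wk p d).mv.shift (2 ^ a)).sm (Zx Z) (fun u => T.cnt p.Lam d Z a p.n u.x u.z u.tp)
        (2 ^ a) y
      else 0
    else 0) = T.Lo d Z a y.x y.z y.tp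

end Vale.Agent.P313.NW.H644
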