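import Vale.Agent.P313.NW.H644.GoalH
import Vale.Agent.P313.NW.H285.Ev

/-!
The goals of the tour phases.
-/

namespace Vale.Agent.P313.NW.H644

open Vale.Agent.P313.H644

open Finset Vale.Agent.P313.NW.CT Vale.Agent.P313.CT Vale.Agent.P313.NW.BP Vale.Agent.P313.NW.H899
  Vale.Agent.P313.H899

/-! ### Values of the phases -/

section vals

variable {p : Par2} {S : Sem} {T : TSem} {w : ℕ → ℕ} {d : SD} {o : ℕ → ℕ} {q : ℕ} {t : Tp}

theorem vq_T0 : vq p d phT0 q ↔ q1 q < p.r ∧ q2 q ≤ p.n ∧ q3 q < p.n ∧ q4 q < p.q ^ d.c (q3 q) := by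
  unfold vq
  rw [if_neg (by decide), if_neg (by decide), if_pos (Or.inl rfl)]

theorem vq_T1 : vq p d (phT1) q ↔
    q1 q < p.r ∧ q2 q ≤ p.n ∧ q3 q < p.n ∧ q4 q < p.q ^ d.c (q3 q) := by
  unfold vq
  rw [if_neg, if_neg, if_pos (Or.inr (Or.inl rfl))]
  all_goals simp only [phData, BP.phHop, phT1]; omega

theorem vq_T2 : vq p d (phT2) q ↔
    q1 q < p.r ∧ q2 q ≤ p.n ∧ q3 q < p.n ∧ q4 q < p.q ^ d.c (q3 q) := by
  unfold vq
  rw [if_neg, if_neg, if_pos (Or.inr (Or.inr rfl))]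
  all_goals simp only [phData, BP.phHop, phT2]; omega

theorem vq_LT : vq p d (phLT) q ↔ q1 q < p.r ∧ q2 q < p.n ∧ e3 q < p.q ^ d.c (q2 q) := by
  unfold vq
  rw [if_neg, if_neg, if_neg, if_neg, if_neg, if_neg, if_pos rfl]
  all_goals simp only [phData, BP.phHop, phPJ2, phT0, BP.phT1, phT2, phPJ0, BP.phP0,
    BP.phP2, BP.phZ1, BP.phZZ, phLT]; omega

theorem val_T0 : phVal p S T w d o phT0 q t =
    T.tour p.Lam d (fun _ => False) (q1 q) (q2 q) (q3 q) (q4 q) t := by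
  unfold phVal
  rw [if_neg (by decide), if_neg (by decide), if_pos rfl]

theorem val_T1 : phVal p S T w d o (phT1) q t =
    T.tour p.Lam d (Z1 p.toPar S d o) (q1 q) (q2 q) (q3 q) (q4 q) t := by
  unfold phVal
  rw [if_neg, if_neg, if_neg, if_neg, if_neg, if_neg, if_neg, if_pos rfl]
  all_goals decide

theorem val_LT : phVal p S T w d o (phLT) q t =
    T.Lo d (Z1 p.toPar S d o) (q1 q) (q2 q) (e3 q) t := by
  unfold phVal
  rw [if_neg, if_neg, if_neg, if_neg, if_neg, if_neg, if_neg, if_neg, if_pos rfl]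
  all_goals decide

theorem val_T2 : phVal p S T w d o (phT2) q t =
    T.tour p.Lam d (Zs p.toPar S d o) (q1 q) (q2 q) (q3 q) (q4 q) t := by
  unfold phVal
  rw [if_neg, if_neg, if_neg, if_neg, if_neg, if_neg, if_neg, if_neg, if_neg, if_neg, if_neg,
    if_pos rfl]
  all_goals decide

end vals

/-! ### The programs -/

/-- The state and number of the token in the query of a tour. -/
def g16 : TS.Fn 20 := fun _ a => (a 1).unpair.1
/-- The target state. -/
def g17 : TS.Fn 20 := fun _ a => (a 1).unpair.2.unpair.1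
/-- The state. -/
def g3 : TS.Fn 20 := fun _ a => (a 1).unpair.2.unpair.2.unpair.1
/-- The number. -/
def g4 : TS.Fn 20 := fun _ a => (a 1).unpair.2.unpair.2.unpair.2
/-- A leaf counts when it has the right state. -/
def gAt : TS.Fn 20 := fun I a => if stat I 0 ≤ a 17 ∨ a 3 = a 17 then 1 else 0
/-- Zero. -/
def g0 : TS.Fn 20 := fun _ _ => 0
/-- The result of a tour. -/
def got : TS.Fn 20 := fun _ a => if a 19 ≤ a 10 then 0 else Nat.pair (a 10) (a 11) + 1

theorem lf_g16 : TS.LF g16 := lf_unpair1 (TS.LF.proj 1)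
theorem lf_g17 : TS.LF g17 := lf_unpair1 (lf_unpair2 (TS.LF.proj 1))
theorem lf_g3 : TS.LF g3 := lf_unpair1 (lf_unpair2 (lf_unpair2 (TS.LF.proj 1)))
theorem lf_g4 : TS.LF g4 := lf_unpair2 (lf_unpair2 (lf_unpair2 (TS.LF.proj 1)))
theorem lf_gAt : TS.LF gAt :=
  TS.LF.ite (TS.LFP.or (TS.LFP.le (lf_stat (TS.LF.const 0)) (TS.LF.proj 17))
    (TS.LFP.eq (TS.LF.proj 3) (TS.LF.proj 17))) (TS.LF.const 1) (TS.LF.const 0)
theorem lf_g0 : TS.LF g0 := TS.LF.const 0
theorem lf_got : TS.LF got :=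
  TS.LF.ite (TS.LFP.le (TS.LF.proj 19) (TS.LF.proj 10)) (TS.LF.const 0)
    (lf_pair (TS.LF.proj 10) (TS.LF.proj 11)).succ

/-- The program of a tour with the level `f15` of the data and the test `fz`. -/
noncomputable def tourT (R Ri : CP) (f15 fz : TS.Fn 20) : CP :=
  tourP R Ri f15 g16 g17 g3 g4 g0 fz gAt g0 got

theorem tourT_ok {R Ri : CP} {f15 fz : TS.Fn 20} (hR : R.Ok) (hRi : Ri.Ok) (h15 : TS.LF f15)
    (hz : TS.LF fz) : (tourT R Ri f15 fz).Ok :=
  tourP_ok hR hRi h15 lf_g16 lf_g17 lf_g3 lf_g4 lf_g0 hz lf_gAt lf_g0 lf_got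

theorem shift_zero {α : Type*} (M : Mv α) : M.shift 0 = M := by
  unfold Mv.shift
  simp only [Nat.zero_add]

variable {C : Ctx} {E : Env} {R Ri : CP}

theorem lvl_le {s ph : ℕ} (hs : s < C.p.S) (hm : ph < C.p.m) :
    s * C.p.m + ph ≤ C.p.S * C.p.m := by
  calc s * C.p.m + ph ≤ s * C.p.m + C.p.m := by omega
    _ = (s + 1) * C.p.m := by ring
    _ ≤ C.p.S * C.p.m := Nat.mul_le_mul_right _ hs

theorem unpair_le' (q : ℕ) : q1 q ≤ q ∧ q2 q ≤ q ∧ q3 q ≤ q ∧ q4 q ≤ q ∧ e3 q ≤ q := by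
  have h1 := Nat.unpair_left_le q
  have h2 := Nat.unpair_right_le q
  have h3 := Nat.unpair_left_le q.unpair.2
  have h4 := Nat.unpair_right_le q.unpair.2
  have h5 := Nat.unpair_left_le q.unpair.2.unpair.2
  have h6 := Nat.unpair_right_le q.unpair.2.unpair.2
  unfold q1 q2 q3 q4 e3
  omega

open Classical in
/-- The goal of a tour. -/
theorem tour_goal (h : C.Hyp E) (hn : Num4 C.p E) (hm : MixProg C E R Ri) {s ph : ℕ}
    (hs : s < C.p.S) (hph : 1 < ph) (hphm : ph < C.p.m)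
    (hok : (wk C.p (C.dt s)).Ok E C.p.r) (hB : Bridge C.p C.T (C.dt s)) {f15 fz : TS.Fn 20}
    (h15 : ∀ (V : Orc) (s' : St), s'.reg 0 = s * C.p.m + ph →
      f15 (inp E V s'.tp) (fun j => s'.reg j) = s * C.p.m) (Z : ℕ → Prop)
    (hZ : ∀ V : Orc, C.Right V (s * C.p.m + ph) → ∀ s' : St,
      Vd E C.p.n (fun x => C.p.q ^ (C.dt s).c x) (cn s') → s'.reg 15 = s * C.p.m →
      fz (inp E V s'.tp) (fun j => s'.reg j) = if Z (s'.reg 3) then 1 else 0)
    (hvq : ∀ q, vq C.p (C.dt s) ph q ↔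
      q1 q < C.p.r ∧ q2 q ≤ C.p.n ∧ q3 q < C.p.n ∧ q4 q < C.p.q ^ (C.dt s).c (q3 q))
    (hval : ∀ q t, phVal C.p C.S C.T C.w (C.dt s) (C.o s) ph q t =
      C.T.tour C.p.Lam (C.dt s) Z (q1 q) (q2 q) (q3 q) (q4 q) t) :
    C.PGoal E (tourT R Ri f15 fz) (s * C.p.m + ph) := by
  intro V hV q hq t ht
  have hy := hyp_stage h hn hm hs hph hphm hV hok
  have hlv := lvl_le hs hphm
  have htop := h.topB
  have hLB := hn.LB
  have hL1 := hn.L1
  have htok := (tok_iff h.toEnvOk t).2 ht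
  obtain ⟨u1, u2, u3, u4, -⟩ := unpair_le' q
  have hi : Init E V (s * C.p.m + ph) q f15 g16 g17 g3 g4 g0 (s * C.p.m) (q1 q) (q2 q) (q3 q)
      (q4 q) 0 := by
    refine ⟨fun s' e1 e2 => ?_, fun s' e1 e2 => ?_, fun s' e1 e2 => ?_, fun s' e1 e2 => ?_,
      fun s' e1 e2 => ?_, fun s' _ => ?_⟩
    · rw [h15 V s' e1]
      exact min_eq_left (by omega)
    · change min (s'.reg 1).unpair.1 E.B = _
      rw [e2]; exact min_eq_left (by unfold q1 at u1; omega)
    · change min (s'.reg 1).unpair.2.unpair.1 E.B = _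
      rw [e2]; exact min_eq_left (by unfold q2 at u2; omega)
    · change min (s'.reg 1).unpair.2.unpair.2.unpair.1 E.B = _
      rw [e2]; exact min_eq_left (by unfold q3 at u3; omega)
    · change min (s'.reg 1).unpair.2.unpair.2.unpair.2 E.B = _
      rw [e2]; exact min_eq_left (by unfold q4 at u4; omega)
    · exact Nat.min_eq_left (Nat.zero_le _)
  have hst : StOk E (wk C.p (C.dt s)).n C.p.r C.p.Lam := by
    have hB0 := h.toEnvOk.stB 0 (by unfold stW; omega)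
    have hB3 := h.toEnvOk.stB 3 (by unfold stW; omega)
    have hB13 := h.toEnvOk.stB 13 (by unfold stW; omega)
    refine ⟨?_, ?_, ?_⟩
    · rw [min_eq_left hB0, h.s0]; rfl
    · rw [min_eq_left hB3, h.s3]
    · rw [min_eq_left hB13, h.s13]
  by_cases hv : q1 q < C.p.r ∧ q2 q ≤ C.p.n ∧ q3 q < C.p.n ∧ q4 q < C.p.q ^ (C.dt s).c (q3 q)
  · obtain ⟨v1, v2, v3, v4⟩ := hv
    have h2a : 2 ^ q1 q ≤ 2 ^ C.p.r := Nat.pow_le_pow_right (by omega) v1.le
    have h2b : 1 ≤ 2 ^ q1 q := Nat.one_le_two_pow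
    have hyv : Vd E (wk C.p (C.dt s)).n (wk C.p (C.dt s)).H ⟨q3 q, q4 q, t⟩ := ⟨v3, v4, htok⟩
    have hyS : VdS C.p (C.dt s) ⟨q3 q, q4 q, t⟩ := ⟨v3, v4, ht⟩
    have hl : LHyp (wk C.p (C.dt s)) E V (s * C.p.m) C.p.Lam 0 (2 ^ q1 q) (q1 q) (q2 q) Z
        (gst C.p.n (q2 q)) (fun _ => 0) fz gAt g0 1 0 C.p.r := by
      refine ⟨fun s' h1 h2 => hZ V hV s' h1 h2, fun s' _ _ _ h17 _ => ?_, fun s' _ _ _ _ _ => rfl,
        fun y _ => ?_, fun y _ => le_rfl, by omega, by omega, by omega, Nat.one_le_two_pow,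
        by omega, by have := h.B18; omega⟩
      · change (if stat (inp E V s'.tp) 0 ≤ s'.reg 17 ∨ s'.reg 3 = s'.reg 17 then 1 else 0) = _
        rw [stat_of hst.s0, h17]
        rfl
      · unfold gst
        split_ifs <;> omega
    obtain ⟨d1, d2, d3⟩ := den_tourP (a := q1 q) (v := q2 q) (x := q3 q) (z := q4 q) (fo := got)
      (O := fun w A _ Λ => if Λ ≤ w then 0 else Nat.pair w A + 1) hy hl hi hst
      (by omega) hL1 v1 v2 hyv (fun s' => rfl)
    rw [shift_zero] at d2 d3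
    have hW := hB.W (q1 q) v1.le _ hyS
    have hC := hB.C Z (q1 q) v1.le (q2 q) _ hyS
    refine ⟨d1, fun hv' => ?_⟩
    have hvB := h.vB _ hlv q hv' t ht
    rw [C.pv_eq hphm, hval] at hvB ⊢
    unfold TSem.tour at hvB ⊢
    rw [hW] at d2 d3
    dsimp only at hvB ⊢ d2 d3
    by_cases hc : C.T.W (C.dt s) (q1 q) (q3 q) (q4 q) t < C.p.Lam
    · rw [if_pos hc] at hvB ⊢
      have d4 := d2 hc
      rw [if_neg (by omega)] at d4
      refine d4.trans ?_
      rw [← hC] at hvB ⊢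
      exact min_eq_left hvB
    · rw [if_neg hc]
      obtain ⟨w, A, B, e1, e2⟩ := d3 (by omega)
      rw [if_pos e1] at e2
      exact e2.trans (Nat.zero_min _)
  · refine ⟨den_tourP_invalid (K := wk C.p (C.dt s)) hi hst
      (fun hx => hy.Hf t htok _ hx) hv, fun hv' => ?_⟩
    rw [C.vl_eq hphm, hvq] at hv'
    exact absurd hv' hv

/-! ### The three tours -/

/-- Level of the data, tour of kind `0`. -/
def b0 : TS.Fn 20 := fun _ a => a 0 - 2
/-- Level of the data, tour of kind `1`. -/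
def b1 : TS.Fn 20 := fun _ a => a 0 - 7
/-- Level of the data, tour of kind `2`. -/
def b2 : TS.Fn 20 := fun _ a => a 0 - 11
/-- Level of the data, loss tour. -/
def bL : TS.Fn 20 := fun _ a => a 0 - 8
/-- The test of the first exceptional set. -/
def fz1 : TS.Fn 20 := fun I a => if ask I (a 15 + 6) (a 3) = 0 then 0 else 1
/-- The test of the exceptional set. -/
def fz2 : TS.Fn 20 := fun I a => if 2 ≤ ask I (a 15 + 10) (a 3) then 1 else 0

theorem lf_b0 : TS.LF b0 := (TS.LF.proj 0).sub (TS.LF.const 2)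
theorem lf_b1 : TS.LF b1 := (TS.LF.proj 0).sub (TS.LF.const 7)
theorem lf_b2 : TS.LF b2 := (TS.LF.proj 0).sub (TS.LF.const 11)
theorem lf_bL : TS.LF bL := (TS.LF.proj 0).sub (TS.LF.const 8)
theorem lf_fz1 : TS.LF fz1 :=
  TS.LF.ite (TS.LFP.eq (lf_ask ((TS.LF.proj 15).add (TS.LF.const 6)) (TS.LF.proj 3))
    (TS.LF.const 0)) (TS.LF.const 0) (TS.LF.const 1)
theorem lf_fz2 : TS.LF fz2 :=
  TS.LF.ite (TS.LFP.le (TS.LF.const 2) (lf_ask ((TS.LF.proj 15).add (TS.LF.const 10))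
    (TS.LF.proj 3))) (TS.LF.const 1) (TS.LF.const 0)

/-- The program of the tour of kind `0`. -/
noncomputable def tour0 (R Ri : CP) : CP := tourT R Ri b0 g0
/-- The program of the tour of kind `1`. -/
noncomputable def tour1 (R Ri : CP) : CP := tourT R Ri b1 fz1
/-- The program of the tour of kind `2`. -/
noncomputable def tour2 (R Ri : CP) : CP := tourT R Ri b2 fz2

theorem tour0_ok (hR : R.Ok) (hRi : Ri.Ok) : (tour0 R Ri).Ok := tourT_ok hR hRi lf_b0 lf_g0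
theorem tour1_ok (hR : R.Ok) (hRi : Ri.Ok) : (tour1 R Ri).Ok := tourT_ok hR hRi lf_b1 lf_fz1
theorem tour2_ok (hR : R.Ok) (hRi : Ri.Ok) : (tour2 R Ri).Ok := tourT_ok hR hRi lf_b2 lf_fz2

open Classical in
theorem fz1_eq (h : C.Hyp E) {s ph : ℕ} (hs : s < C.p.S) (hph : phZ1 < ph)
    (hphm : ph < C.p.m) {V : Orc} (hV : C.Right V (s * C.p.m + ph)) {s' : St}
    (hv : Vd E C.p.n (fun x => C.p.q ^ (C.dt s).c x) (cn s')) (h15 : s'.reg 15 = s * C.p.m) :
    fz1 (inp E V s'.tp) (fun j => s'.reg j) =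
      if Z1 C.p.toPar C.S (C.dt s) (C.o s) (s'.reg 3) then 1 else 0 := by
  have hx : s'.reg 3 < C.p.n := hv.1
  have e : ask (inp E V s'.tp) (s'.reg 15 + 6) (s'.reg 3) =
      if Z1 C.p.toPar C.S (C.dt s) (C.o s) (s'.reg 3) then 1 else 0 := by
    rw [h15]
    have h1 := Ctx.Right.ask_stage h hs hphm hV hph (q := s'.reg 3)
      ((BP.vq_Z1 C.p _ _).2 hx) ((tok_iff h.toEnvOk s'.tp).1 hv.2.2)
    rw [BP.phVal_Z1] at h1
    exact h1
  change (if ask (inp E V s'.tp) (s'.reg 15 + 6) (s'.reg 3) = 0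
    then 0 else 1) = _
  rw [e]
  split_ifs <;> simp_all

open Classical in
theorem fz2_eq (h : C.Hyp E) {s ph : ℕ} (hs : s < C.p.S) (hph : phZZ < ph)
    (hphm : ph < C.p.m) {V : Orc} (hV : C.Right V (s * C.p.m + ph)) {s' : St}
    (hv : Vd E C.p.n (fun x => C.p.q ^ (C.dt s).c x) (cn s')) (h15 : s'.reg 15 = s * C.p.m) :
    fz2 (inp E V s'.tp) (fun j => s'.reg j) =
      if Zs C.p.toPar C.S (C.dt s) (C.o s) (s'.reg 3) then 1 else 0 := by
  have hx : s'.reg 3 < C.p.n := hv.1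
  have e : ask (inp E V s'.tp) (s'.reg 15 + 10) (s'.reg 3) =
      (if Zst C.p.toPar C.S (C.dt s) (C.o s) (s'.reg 3) then 1 else 0) +
      2 * (if Zs C.p.toPar C.S (C.dt s) (C.o s) (s'.reg 3) then 1 else 0) := by
    rw [h15]
    have h1 := Ctx.Right.ask_stage h hs hphm hV hph (q := s'.reg 3)
      ((BP.vq_ZZ C.p _ _).2 hx) ((tok_iff h.toEnvOk s'.tp).1 hv.2.2)
    rw [BP.phVal_ZZ] at h1
    exact h1
  change (if 2 ≤ ask (inp E V s'.tp) (s'.reg 15 + 10) (s'.reg 3)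
    then 1 else 0) = _
  rw [e]
  split_ifs <;> first | rfl | omega

theorem t0_goal (h : C.Hyp E) (hn : Num4 C.p E) (hm : MixProg C E R Ri) {s : ℕ}
    (hs : s < C.p.S) (hok : (wk C.p (C.dt s)).Ok E C.p.r) (hB : Bridge C.p C.T (C.dt s)) :
    C.PGoal E (tour0 R Ri) (s * C.p.m + phT0) := by
  refine tour_goal h hn hm hs (by decide) (by unfold phT0 Par2.m nph; omega) hok hB
    (fun V s' h0 => ?_) (fun _ => False) (fun V _ s' _ _ => ?_) (fun q => vq_T0)
    (fun q t => val_T0)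
  · change s'.reg 0 - 2 = _
    rw [h0]
    unfold phT0
    omega
  · rw [if_neg id]
    rfl

theorem t1_goal (h : C.Hyp E) (hn : Num4 C.p E) (hm : MixProg C E R Ri) {s : ℕ}
    (hs : s < C.p.S) (hok : (wk C.p (C.dt s)).Ok E C.p.r) (hB : Bridge C.p C.T (C.dt s)) :
    C.PGoal E (tour1 R Ri) (s * C.p.m + phT1) := by
  have hphm : phT1 < C.p.m := by unfold phT1 Par2.m nph; omega
  refine tour_goal h hn hm hs (by unfold phT1; omega) hphm hok hB
    (fun V s' h0 => ?_) (Z1 C.p.toPar C.S (C.dt s) (C.o s)) (fun V hV s' h1 h2 => ?_)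
    (fun q => vq_T1) (fun q t => val_T1)
  · change s'.reg 0 - 7 = _
    rw [h0]
    unfold phT1
    omega
  · exact fz1_eq h hs (by unfold phZ1 phT1; omega) hphm hV h1 h2

theorem t2_goal (h : C.Hyp E) (hn : Num4 C.p E) (hm : MixProg C E R Ri) {s : ℕ}
    (hs : s < C.p.S) (hok : (wk C.p (C.dt s)).Ok E C.p.r) (hB : Bridge C.p C.T (C.dt s)) :
    C.PGoal E (tour2 R Ri) (s * C.p.m + phT2) := by
  have hphm : phT2 < C.p.m := by unfold phT2 Par2.m nph; omega
  refine tour_goal h hn hm hs (by unfold phT2; omega) hphm hok hB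
    (fun V s' h0 => ?_) (Zs C.p.toPar C.S (C.dt s) (C.o s))
    (fun V hV s' h1 h2 => ?_) (fun q => vq_T2) (fun q t => val_T2)
  · change s'.reg 0 - 11 = _
    rw [h0]
    unfold phT2
    omega
  · exact fz2_eq h hs (by unfold phZZ phT2; omega) hphm hV h1 h2

end Vale.Agent.P313.NW.H644
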