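import Vale.Agent.P313.NW.H644.WkDef
import Vale.Agent.P313.NW.H899.HopG

/-!
The hypotheses of the tour programs from the canonical answers of the lower levels.
-/

namespace Vale.Agent.P313.NW.H644

open Vale.Agent.P313.H644

open Finset Vale.Agent.P313.NW.CT Vale.Agent.P313.CT Vale.Agent.P313.NW.BP Vale.Agent.P313.NW.H899
  Vale.Agent.P313.H899

/-- Numerical hypotheses of the tours. -/
structure Num4 (p : Par2) (E : Env) : Prop where
  n1 : 1 ≤ p.n
  q1 : 1 ≤ p.q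
  qb : 3 ≤ p.q ^ p.b
  cB : (p.n + 1) * p.q ^ p.cmax + 1 ≤ E.B
  LB : 2 * p.Lam + 2 ^ p.r + 4 ≤ E.B
  LLB : p.Lam * p.Lam ≤ E.B
  L1 : 1 ≤ p.Lam

/-- What the programs for the mixing step and its inverse have to do. -/
structure MixProg (C : Ctx) (E : Env) (R Ri : CP) : Prop where
  up : ∀ d, C.DtOk d → ∀ (V : Orc) (l0 : ℕ),
    (∀ t, TOk E t → ∀ x < C.p.n, ask (inp E V t) l0 (Nat.pair 1 (Nat.pair x 0)) = d.c x) →
    ∀ s : St, Vd E C.p.n (fun x => C.p.q ^ d.c x) (cn s) → s.reg 6 < C.p.r → s.reg 15 = l0 →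
      cn (den E V R s) = (wk C.p d).mix (s.reg 6) (cn s) ∧
        ∀ i < 20, i ≠ 4 → (den E V R s).reg i = s.reg i
  dn : ∀ d, C.DtOk d → ∀ (V : Orc) (l0 : ℕ),
    (∀ t, TOk E t → ∀ x < C.p.n, ask (inp E V t) l0 (Nat.pair 1 (Nat.pair x 0)) = d.c x) →
    ∀ s : St, Vd E C.p.n (fun x => C.p.q ^ d.c x) (cn s) → s.reg 6 < C.p.r → s.reg 15 = l0 →
      cn (den E V Ri s) = (wk C.p d).unmix (s.reg 6) (cn s) ∧
        ∀ i < 20, i ≠ 4 → (den E V Ri s).reg i = s.reg i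

variable {C : Ctx} {E : Env} {R Ri : CP}

theorem colS_le {d : SD} (hd : C.DtOk d) (hq : 1 ≤ C.p.q) {x : ℕ} (hx : x < C.p.n) :
    colS C.p.n (FD C.p.toPar d) x ≤ C.p.n * C.p.q ^ C.p.cmax := by
  have h1 : ∑ v ∈ range C.p.n, FD C.p.toPar d v x ≤ ∑ v ∈ range C.p.n, C.p.q ^ C.p.cmax := by
    refine sum_le_sum fun v hv => ?_
    have hv' := mem_range.1 hv
    have h2 : d.A v x ≤ C.p.q ^ C.p.b := by
      rw [← hd.row v hv']
      exact single_le_sum (f := fun x => d.A v x) (fun _ _ => Nat.zero_le _) (mem_range.2 hx)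
    calc FD C.p.toPar d v x ≤ C.p.q ^ (d.c v - C.p.b) * C.p.q ^ C.p.b :=
          Nat.mul_le_mul_left _ h2
      _ = C.p.q ^ d.c v := by
          rw [← pow_add]
          congr 1
          have := hd.cb v hv'
          omega
      _ ≤ C.p.q ^ C.p.cmax := Nat.pow_le_pow_right hq (hd.cm v hv')
  rw [sum_const, card_range, smul_eq_mul] at h1
  exact h1

theorem cH_le {d : SD} (hd : C.DtOk d) (hq : 1 ≤ C.p.q) {x : ℕ} (hx : x < C.p.n) :
    colS C.p.n (FD C.p.toPar d) x + C.p.q ^ d.c x ≤ (C.p.n + 1) * C.p.q ^ C.p.cmax := by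
  have h1 := colS_le hd hq hx
  have h2 : C.p.q ^ d.c x ≤ C.p.q ^ C.p.cmax := Nat.pow_le_pow_right hq (hd.cm x hx)
  calc _ ≤ C.p.n * C.p.q ^ C.p.cmax + C.p.q ^ C.p.cmax := Nat.add_le_add h1 h2
    _ = _ := by ring

theorem ask_data (h : C.Hyp E) {V : Orc} {s ph : ℕ} (hs : s < C.p.S) (hph : 0 < ph)
    (hm : ph < C.p.m) (hV : C.Right V (s * C.p.m + ph)) {t : CT.Tape} (ht : TOk E t) {x : ℕ}
    (hx : x < C.p.n) :
    ask (inp E V t) (s * C.p.m) (Nat.pair 1 (Nat.pair x 0)) = (C.dt s).c x := by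
  have h1 := Ctx.Right.ask_stage h hs hm hV (ph' := phData) hph
    (q := Nat.pair 1 (Nat.pair x 0)) ?_ ((tok_iff h.toEnvOk t).1 ht)
  · have e : s * C.p.m + phData = s * C.p.m := rfl
    rw [e] at h1
    rw [h1]
    simp [phVal]
  · simp only [vq, if_true, q1_pair, q2_pair, e3_pair]
    exact ⟨by omega, hx, by omega⟩

/-- The hypotheses of the tour programs. -/
theorem hyp_stage (h : C.Hyp E) (hn : Num4 C.p E) (hm : MixProg C E R Ri) {s ph : ℕ}
    (hs : s < C.p.S) (hph : 1 < ph) (hphm : ph < C.p.m) {V : Orc}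
    (hV : C.Right V (s * C.p.m + ph)) (hok : (wk C.p (C.dt s)).Ok E C.p.r) :
    Hyp (wk C.p (C.dt s)) E V (s * C.p.m) C.p.r R Ri := by
  have hd := h.dtOk s hs.le
  have hq1 := hn.q1
  have hcB := hn.cB
  have hLB := hn.LB
  have hcl : ∀ x < C.p.n, C.p.q ^ (C.dt s).c x ≤ C.p.q ^ C.p.cmax := fun x hx =>
    Nat.pow_le_pow_right hq1 (hd.cm x hx)
  have hqp : 1 ≤ C.p.q ^ C.p.cmax := Nat.one_le_pow _ _ hq1
  have hnn : C.p.n ≤ (C.p.n + 1) * C.p.q ^ C.p.cmax := by nlinarith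
  have hcn : C.p.q ^ C.p.cmax ≤ (C.p.n + 1) * C.p.q ^ C.p.cmax := by nlinarith
  have hask : ∀ t, TOk E t → ∀ x < C.p.n,
      ask (inp E V t) (s * C.p.m) (Nat.pair 1 (Nat.pair x 0)) = (C.dt s).c x :=
    fun t ht x hx => ask_data h hs (by omega) hphm hV ht hx
  have hne : phHop ≠ phData := by decide
  refine ⟨hok, ?_, ?_, ?_, ?_, ?_, ?_, ?_, ?_⟩
  · intro t ht x hx
    unfold H644.Hf
    rw [hask t ht x hx, h.toEnvOk.stat64 (by omega), h.s1, bnd_inp]
    refine min_eq_left ?_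
    have := hcl x hx
    omega
  · intro t ht x hx z hz
    change z < C.p.q ^ (C.dt s).c x at hz
    have h1 := Ctx.Right.ask_stage h hs hphm hV (ph' := phHop) hph
      (q := Nat.pair 0 (Nat.pair x z)) ?_ ((tok_iff h.toEnvOk t).1 ht)
    · change ask (inp E V t) (s * C.p.m + phHop) _ = _
      rw [h1]
      simp only [phVal, if_neg hne, if_true, q1_pair, q2_pair, e3_pair]
      rw [hopF_fst, hopF_snd]
      rfl
    · simp only [vq, if_neg hne, if_true, q1_pair, q2_pair, e3_pair]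
      exact Or.inl ⟨trivial, hx, hz⟩
  · intro t ht x hx ρ hρ
    have hb : ρ < C.p.q ^ C.p.cmax * C.p.n * C.p.q ^ C.p.b := by
      have h2 := cH_le hd hq1 hx
      have h3 := hn.qb
      have h4 := hn.n1
      have h5 : ρ ≤ (C.p.n + 1) * C.p.q ^ C.p.cmax := le_trans hρ h2
      have h6 : C.p.n * 3 ≤ C.p.n * C.p.q ^ C.p.b := Nat.mul_le_mul_left _ h3
      calc ρ ≤ (C.p.n + 1) * C.p.q ^ C.p.cmax := h5
        _ < (C.p.n * C.p.q ^ C.p.b) * C.p.q ^ C.p.cmax :=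
          Nat.mul_lt_mul_of_pos_right (by omega) hqp
        _ = _ := by ring
    have h1 := Ctx.Right.ask_stage h hs hphm hV (ph' := phHop) hph
      (q := Nat.pair 1 (Nat.pair x ρ)) ?_ ((tok_iff h.toEnvOk t).1 ht)
    · change ask (inp E V t) (s * C.p.m + phHop) _ = _
      rw [h1]
      simp only [phVal, if_neg hne, if_true, q1_pair, q2_pair, e3_pair, if_neg one_ne_zero]
      rw [hopB_fst, hopB_snd]
      have h4 : colS (wk C.p (C.dt s)).n (wk C.p (C.dt s)).F x =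
        cumC C.p.toPar (C.dt s) x C.p.n := rfl
      rw [h4]
      by_cases h5 : ρ < cumC C.p.toPar (C.dt s) x C.p.n
      · rw [if_pos h5, if_neg (by omega)]
        rfl
      · rw [if_neg h5, if_pos (by omega)]
    · simp only [vq, if_neg hne, if_true, q1_pair, q2_pair, e3_pair]
      exact Or.inr ⟨trivial, hx, hb⟩
  · change C.p.n ≤ E.B
    omega
  · intro x hx
    have := cH_le hd hq1 hx
    change colS C.p.n (FD C.p.toPar (C.dt s)) x + C.p.q ^ (C.dt s).c x + 1 ≤ E.B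
    omega
  · omega
  · intro s' hv h6 h15
    exact hm.up _ hd V _ hask s' hv h6 h15
  · intro s' hv h6 h15
    exact hm.dn _ hd V _ hask s' hv h6 h15

end Vale.Agent.P313.NW.H644
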