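import Vale.Agent.P313.NW.H644.Goal

/-!
The goal of the loss tour.
-/

namespace Vale.Agent.P313.NW.H644

open Vale.Agent.P313.H644

open Finset Vale.Agent.P313.NW.CT Vale.Agent.P313.CT Vale.Agent.P313.NW.BP Vale.Agent.P313.NW.H899
  Vale.Agent.P313.H899

/-- Any target state. -/
def h17 : TS.Fn 20 := fun I _ => stat I 0
/-- The state. -/
def h3 : TS.Fn 20 := fun _ a => (a 1).unpair.2.unpair.1
/-- The number. -/
def h4 : TS.Fn 20 := fun _ a => (a 1).unpair.2.unpair.2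
/-- The first time. -/
def h13 : TS.Fn 20 := fun I a => pw I (a 16)
/-- The answer of the tour of kind `1` at a leaf. -/
def hans : TS.Fn 20 := fun I a => ask I (a 15 + 7)
  (Nat.pair (a 16) (Nat.pair (a 17) (Nat.pair (a 3) (a 4))))
/-- The number of alive leaves. -/
def hA : TS.Fn 20 := fun I a => if hans I a = 0 then 0 else (hans I a - 1).unpair.2
/-- The weight. -/
def hBf : TS.Fn 20 := fun I a => if hans I a = 0 then a 19 else (hans I a - 1).unpair.1
/-- The result. -/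
def hof : TS.Fn 20 := fun _ a => if a 19 ≤ a 10 then 0 else if a 19 ≤ a 10 + a 12 then a 11 else 0

theorem lf_h17 : TS.LF h17 := lf_stat (TS.LF.const 0)
theorem lf_h3 : TS.LF h3 := lf_unpair1 (lf_unpair2 (TS.LF.proj 1))
theorem lf_h4 : TS.LF h4 := lf_unpair2 (lf_unpair2 (TS.LF.proj 1))
theorem lf_h13 : TS.LF h13 := lf_pw (TS.LF.proj 16)
theorem lf_hans : TS.LF hans :=
  lf_ask ((TS.LF.proj 15).add (TS.LF.const 7)) (lf_pair (TS.LF.proj 16) (lf_pair (TS.LF.proj 17)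
    (lf_pair (TS.LF.proj 3) (TS.LF.proj 4))))
theorem lf_hA : TS.LF hA :=
  TS.LF.ite (TS.LFP.eq lf_hans (TS.LF.const 0)) (TS.LF.const 0)
    (lf_unpair2 (lf_hans.sub (TS.LF.const 1)))
theorem lf_hBf : TS.LF hBf :=
  TS.LF.ite (TS.LFP.eq lf_hans (TS.LF.const 0)) (TS.LF.proj 19)
    (lf_unpair1 (lf_hans.sub (TS.LF.const 1)))
theorem lf_hof : TS.LF hof :=
  TS.LF.ite (TS.LFP.le (TS.LF.proj 19) (TS.LF.proj 10)) (TS.LF.const 0)
    (TS.LF.ite (TS.LFP.le (TS.LF.proj 19) ((TS.LF.proj 10).add (TS.LF.proj 12)))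
      (TS.LF.proj 11) (TS.LF.const 0))

/-- The program of the loss tour. -/
noncomputable def lossP (R Ri : CP) : CP :=
  tourP R Ri bL g16 h17 h3 h4 h13 fz1 hA hBf hof

theorem lossP_ok {R Ri : CP} (hR : R.Ok) (hRi : Ri.Ok) : (lossP R Ri).Ok :=
  tourP_ok hR hRi lf_bL lf_g16 lf_h17 lf_h3 lf_h4 lf_h13 lf_fz1 lf_hA lf_hBf lf_hof

variable {C : Ctx} {E : Env} {R Ri : CP}

/-- Number of alive leaves of a tree. -/
def gL (T : TSem) (Lam : ℕ) (d : SD) (Z : ℕ → Prop) (a n : ℕ) (u : Cn) : ℕ :=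
  T.cnt Lam d Z a n u.x u.z u.tp

/-- The clipped weight of a tree. -/
def wL (T : TSem) (Lam : ℕ) (d : SD) (a : ℕ) (u : Cn) : ℕ :=
  if T.W d a u.x u.z u.tp < Lam then T.W d a u.x u.z u.tp else Lam

theorem hans_eq (h : C.Hyp E) {s : ℕ} (hs : s < C.p.S) {V : Orc}
    (hV : C.Right V (s * C.p.m + phLT)) {s' : St} {a : ℕ} (ha : a < C.p.r)
    (hv : Vd E C.p.n (fun x => C.p.q ^ (C.dt s).c x) (cn s')) (h15 : s'.reg 15 = s * C.p.m)
    (h16 : s'.reg 16 = a) (h17 : s'.reg 17 = C.p.n) :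
    hans (inp E V s'.tp) (fun j => s'.reg j) =
      C.T.tour C.p.Lam (C.dt s) (Z1 C.p.toPar C.S (C.dt s) (C.o s)) a C.p.n (s'.reg 3)
        (s'.reg 4) s'.tp := by
  have hphm : phLT < C.p.m := by unfold phLT Par2.m nph; omega
  have h1 := Ctx.Right.ask_stage h hs hphm hV (ph' := phT1)
    (by unfold phT1 phLT; omega)
    (q := Nat.pair a (Nat.pair C.p.n (Nat.pair (s'.reg 3) (s'.reg 4))))
    (vq_T1.2 (by
      rw [q1_pair, q2_pair, q3_pair, q4_pair]
      exact ⟨ha, le_rfl, hv.1, hv.2.1⟩)) ((tok_iff h.toEnvOk s'.tp).1 hv.2.2)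
  rw [val_T1, q1_pair, q2_pair, q3_pair, q4_pair] at h1
  change ask (inp E V s'.tp) (s'.reg 15 + 7)
    (Nat.pair (s'.reg 16) (Nat.pair (s'.reg 17) (Nat.pair (s'.reg 3) (s'.reg 4)))) = _
  rw [h15, h16, h17]
  exact h1

open Classical in
/-- The goal of the loss tour. -/
theorem lt_goal (h : C.Hyp E) (hn : Num4 C.p E) (hm : MixProg C E R Ri) {s : ℕ}
    (hs : s < C.p.S) (hok : (wk C.p (C.dt s)).Ok E C.p.r) (hB : Bridge C.p C.T (C.dt s)) :
    C.PGoal E (lossP R Ri) (s * C.p.m + phLT) := by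
  intro V hV q hq t ht
  have hphm : phLT < C.p.m := by unfold phLT Par2.m nph; omega
  have hy := hyp_stage h hn hm hs (by unfold phLT; omega) hphm hV hok
  have hlv := lvl_le hs hphm
  have htop := h.topB
  have hLB := hn.LB
  have hL1 := hn.L1
  have hLLB := hn.LLB
  have htok := (tok_iff h.toEnvOk t).2 ht
  have hnB := hy.nB
  change C.p.n ≤ E.B at hnB
  obtain ⟨u1, u2, -, -, u5⟩ := unpair_le' q
  have hst : StOk E (wk C.p (C.dt s)).n C.p.r C.p.Lam := by
    have hB0 := h.toEnvOk.stB 0 (by unfold stW; omega)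
    have hB3 := h.toEnvOk.stB 3 (by unfold stW; omega)
    have hB13 := h.toEnvOk.stB 13 (by unfold stW; omega)
    refine ⟨?_, ?_, ?_⟩
    · rw [min_eq_left hB0, h.s0]; rfl
    · rw [min_eq_left hB3, h.s3]
    · rw [min_eq_left hB13, h.s13]
  have hi : Init E V (s * C.p.m + phLT) q bL g16 h17 h3 h4 h13 (s * C.p.m) (q1 q) C.p.n
      (q2 q) (e3 q) (min (min (2 ^ q1 q) (E.B + 1)) E.B) := by
    refine ⟨fun s' e1 e2 => ?_, fun s' e1 e2 => ?_, fun s' e1 e2 => ?_, fun s' e1 e2 => ?_,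
      fun s' e1 e2 => ?_, fun s' e16 => ?_⟩
    · change min (s'.reg 0 - 8) E.B = _
      rw [e1]
      unfold phLT
      rw [show s * C.p.m + 8 - 8 = s * C.p.m by omega]
      exact min_eq_left (by omega)
    · change min (s'.reg 1).unpair.1 E.B = _
      rw [e2]; exact min_eq_left (by unfold q1 at u1; omega)
    · change min (stat (inp E V s'.tp) 0) E.B = _
      rw [stat_of hst.s0]; exact min_eq_left hnB
    · change min (s'.reg 1).unpair.2.unpair.1 E.B = _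
      rw [e2]; exact min_eq_left (by unfold q2 at u2; omega)
    · change min (s'.reg 1).unpair.2.unpair.2 E.B = _
      rw [e2]; exact min_eq_left (by unfold e3 at u5; omega)
    · change min (pw (inp E V s'.tp) (s'.reg 16)) E.B = _
      unfold pw
      rw [e16, bnd_inp]
  by_cases hv : q1 q < C.p.r ∧ C.p.n ≤ C.p.n ∧ q2 q < C.p.n ∧ e3 q < C.p.q ^ (C.dt s).c (q2 q)
  · obtain ⟨v1, v2, v3, v4⟩ := hv
    have h2a : 2 ^ q1 q + 2 ^ q1 q ≤ 2 ^ C.p.r := by
      have : 2 ^ (q1 q + 1) ≤ 2 ^ C.p.r := Nat.pow_le_pow_right (by omega) v1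
      rw [pow_succ] at this
      omega
    have h2b : 1 ≤ 2 ^ q1 q := Nat.one_le_two_pow
    have e13 : min (min (2 ^ q1 q) (E.B + 1)) E.B = 2 ^ q1 q := by
      rw [min_eq_left (by omega), min_eq_left (by omega)]
    rw [e13] at hi
    have hyv : Vd E (wk C.p (C.dt s)).n (wk C.p (C.dt s)).H ⟨q2 q, e3 q, t⟩ := ⟨v3, v4, htok⟩
    have hyS : VdS C.p (C.dt s) ⟨q2 q, e3 q, t⟩ := ⟨v3, v4, ht⟩
    set Z := Z1 C.p.toPar C.S (C.dt s) (C.o s) with hZ
    have hcnt : ∀ y, Vd E (wk C.p (C.dt s)).n (wk C.p (C.dt s)).H y →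
        gL C.T C.p.Lam (C.dt s) Z (q1 q) C.p.n y ≤ C.p.Lam := by
      intro y hyy
      have hyy' : VdS C.p (C.dt s) y := ⟨hyy.1, hyy.2.1, (tok_iff h.toEnvOk _).1 hyy.2.2⟩
      unfold gL TSem.cnt
      split_ifs with hc
      · have h1 := hB.C Z (q1 q) v1.le C.p.n y hyy'
        have h2 := hB.W (q1 q) v1.le y hyy'
        rw [← h1]
        rw [← h2] at hc
        have h3 := Mv.sm_le_W' (wk C.p (C.dt s)).mv (Z := Zx Z) (g := gst C.p.n C.p.n) (G := 1)
          (hok.law (D := 2 ^ q1 q) (by omega)) (fun y _ => by unfold gst; split_ifs <;> omega)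
          h2b hyy
        omega
      · omega
    have hl : LHyp (wk C.p (C.dt s)) E V (s * C.p.m) C.p.Lam (2 ^ q1 q) (2 ^ q1 q) (q1 q) C.p.n Z
        (gL C.T C.p.Lam (C.dt s) Z (q1 q) C.p.n) (wL C.T C.p.Lam (C.dt s) (q1 q)) fz1 hA hBf
        C.p.Lam C.p.Lam C.p.r := by
      refine ⟨fun s' h1 h2 => fz1_eq h hs (by unfold phZ1 phLT; omega) hphm hV h1 h2,
        fun s' g1 g2 g3 g4 g5 => ?_, fun s' g1 g2 g3 g4 g5 => ?_, hcnt, fun y _ => ?_, hLLB, hLLB,
        by omega, h2b, h2a, by have := h.B18; omega⟩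
      · have e := hans_eq h hs hV v1 g1 g2 g3 g4
        change (if hans (inp E V s'.tp) (fun j => s'.reg j) = 0 then 0 else
          (hans (inp E V s'.tp) (fun j => s'.reg j) - 1).unpair.2) = _
        rw [e]
        change _ = TSem.cnt C.T C.p.Lam (C.dt s) Z (q1 q) C.p.n (s'.reg 3) (s'.reg 4) s'.tp
        unfold TSem.tour TSem.cnt
        by_cases hc : C.T.W (C.dt s) (q1 q) (s'.reg 3) (s'.reg 4) s'.tp < C.p.Lam
        · simp only [if_pos hc]
          rw [if_neg (Nat.succ_ne_zero _), Nat.add_sub_cancel, Nat.unpair_pair]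
        · simp only [if_neg hc, if_true]
      · have e := hans_eq h hs hV v1 g1 g2 g3 g4
        change (if hans (inp E V s'.tp) (fun j => s'.reg j) = 0 then s'.reg 19 else
          (hans (inp E V s'.tp) (fun j => s'.reg j) - 1).unpair.1) = _
        rw [e, g5]
        change _ = if C.T.W (C.dt s) (q1 q) (s'.reg 3) (s'.reg 4) s'.tp < C.p.Lam then
          C.T.W (C.dt s) (q1 q) (s'.reg 3) (s'.reg 4) s'.tp else C.p.Lam
        unfold TSem.tour
        by_cases hc : C.T.W (C.dt s) (q1 q) (s'.reg 3) (s'.reg 4) s'.tp < C.p.Lam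
        · simp only [if_pos hc]
          rw [if_neg (Nat.succ_ne_zero _), Nat.add_sub_cancel, Nat.unpair_pair]
        · simp only [if_neg hc, if_true]
      · unfold wL
        split_ifs <;> omega
    obtain ⟨d1, d2, d3⟩ := den_tourP (a := q1 q) (v := C.p.n) (x := q2 q) (z := e3 q) (fo := hof)
      (O := fun w A B Λ => if Λ ≤ w then 0 else if Λ ≤ w + B then A else 0) hy hl hi hst
      (by omega) hL1 v1 v2 hyv (fun s' => rfl)
    have hLo := hB.Lo Z (q1 q) v1 _ hyS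
    refine ⟨d1, fun hv' => ?_⟩
    have hvB := h.vB _ hlv q hv' t ht
    rw [C.pv_eq hphm, val_LT] at hvB ⊢
    rw [← hZ] at hvB ⊢
    by_cases hc : ((wk C.p (C.dt s)).mv.shift (2 ^ q1 q)).W (2 ^ q1 q) ⟨q2 q, e3 q, t⟩ < C.p.Lam
    · rw [if_pos hc] at hLo
      have d4 := d2 hc
      rw [if_neg (by omega)] at d4
      refine d4.trans ?_
      rw [← hLo] at hvB ⊢
      exact min_eq_left hvB
    · rw [if_neg hc] at hLo
      obtain ⟨w, A, B, e1, e2⟩ := d3 (by omega)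
      rw [if_pos e1] at e2
      rw [← hLo]
      exact e2.trans (Nat.zero_min _)
  · refine ⟨den_tourP_invalid (K := wk C.p (C.dt s)) hi hst
      (fun hx => hy.Hf t htok _ hx) hv, fun hv' => ?_⟩
    rw [C.vl_eq hphm, vq_LT] at hv'
    exact absurd ⟨hv'.1, le_rfl, hv'.2.1, hv'.2.2⟩ hv

end Vale.Agent.P313.NW.H644
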